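import Vale.Agent.P236S.Alg

/-!
# P236S: packed tables
-/

noncomputable section

namespace Vale.Agent.P236S

open Vale.Agent.P236N

theorem lt_of_nth_ne {α : Type} {x : α} {L : List α} {n : ℕ} (h : nth x L n ≠ x) :
    n < L.length := by
  by_contra h1
  exact h (by rw [nth_eq, List.getD_eq_default _ _ (by omega)])

theorem lt_of_lt_nth {α : Type} {L : List (List α)} {n k : ℕ} (h : k < (nth [] L n).length) :
    n < L.length := lt_of_nth_ne (List.ne_nil_of_length_pos (Nat.zero_lt_of_lt h))

/-- rows: `32` bits for each row and a leading one -/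
def unp (f : ℕ) : ℕ → List TV :=
  Nat.rec (fun _ => []) (fun _ r X => bif Nat.ble X 1 then [] else
    (Nat.mod X 65536, Nat.mod (Nat.shiftRight X 16) 65536) :: r (Nat.shiftRight X 32)) f

/-- an entry of a table with three indices -/
def at3 (L : List (List (List ℕ))) (a b c : ℕ) : ℕ := nth 0 (nth [] (nth [] L a) b) c

/-- the tables: `N[s][d]`, `R[s][d][i]`, `E[s][d][k]` -/
def mkT (N : List (List ℕ)) (R E : List (List (List ℕ))) : Tb where
  n s d := nth 0 (nth [] N s) d
  row i s d := unp 12 (at3 R s d i)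
  cd s d k l := Nat.sub 65535 (Nat.mod (Nat.shiftRight (at3 E s d k) (Nat.mul 16 l)) 65536)

/-- a packed equation -/
def decT (t : ℕ) : Tag :=
  (Nat.mod t 8, Nat.mod (Nat.shiftRight t 3) 64, Nat.mod (Nat.shiftRight t 9) 128,
    Nat.mod (Nat.shiftRight t 16) 16, Nat.mod (Nat.shiftRight t 20) 16, Nat.shiftRight t 24)

/-- a packed certificate -/
def dec (f : ℕ) : ℕ → Ct :=
  Nat.rec (fun _ => []) (fun _ r X => bif Nat.beq X 0 then [] else
    decT (Nat.mod X 67108864) :: r (Nat.shiftRight X 26)) f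

/-- the check of all coordinates in level `s`; `C[d][k][l]` are the certificates -/
def lvl (N : List (List ℕ)) (R E : List (List (List ℕ))) (s : ℕ) (C : List (List (List ℕ))) :
    Bool :=
  allLt (fun d => allLt (fun k => Nat.beq (at3 E s d k) 0 ||
    (Nat.beq (Nat.shiftRight (at3 E s d k) 192) 0 &&
      allLt (fun l => Nat.ble 65535 ((mkT N R E).cd s d k l) ||
        (mkT N R E).vO s d k l (dec 99 (at3 C d k l))) 12))
    (nth [] (nth [] E s) d).length) (nth [] E s).length

theorem cert_of {N : List (List ℕ)} {R E : List (List (List ℕ))}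
    (h : ∀ s < E.length, ∃ C, lvl N R E s C = true) (s d k l : ℕ)
    (h1 : (mkT N R E).cd s d k l < 65535) : ∃ C, (mkT N R E).vO s d k l C = true := by
  have h2 : at3 E s d k >>> (16 * l) ≠ 0 := fun e => by
    have h3 : (mkT N R E).cd s d k l = 65535 - (at3 E s d k >>> (16 * l)) % 65536 := rfl
    rw [h3, e] at h1
    omega
  have h3 : at3 E s d k ≠ 0 := fun e => h2 (by rw [e, Nat.zero_shiftRight])
  have hk := lt_of_nth_ne h3
  have hd : d < (nth [] E s).length := lt_of_lt_nth hk
  obtain ⟨C, hC⟩ := h s (lt_of_lt_nth hd)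
  have h4 := allLt_spec (allLt_spec hC d hd) k hk
  simp only [Bool.or_eq_true, Bool.and_eq_true, Nat.beq_eq, h3, false_or] at h4
  have hl : l < 12 := by
    by_contra hl
    refine h2 ?_
    rw [show 16 * l = 192 + (16 * l - 192) by omega, Nat.shiftRight_add,
      show at3 E s d k >>> 192 = 0 from h4.1, Nat.zero_shiftRight]
  have h5 := allLt_spec h4.2 l hl
  rw [Bool.or_eq_true, Nat.ble_eq] at h5
  exact ⟨_, h5.resolve_left (by omega)⟩

/-- a test for all rows in a level -/
def rowAll (p : ℕ → ℕ → ℕ → TV → Bool) (R : List (List ℕ)) : Bool :=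
  allLt (fun d => allLt (fun i => allLt (fun k => p i d k (nth (0, 0) (unp 12
    (nth 0 (nth [] R d) i)) k)) (unp 12 (nth 0 (nth [] R d) i)).length)
      (nth [] R d).length) R.length

theorem fit_of {N : List (List ℕ)} {R E : List (List (List ℕ))} {M : Mdl}
    (hn : ∀ s ≤ 32, ∀ d ≤ 90, M.n s d = nth 0 (nth [] N s) d)
    (hg : ∀ s d, 5 ≤ s → s ≤ 32 → d ≤ 90 → (s = 5 → d ≤ 87) → M.Good s d)
    (hr : ∀ s < R.length, ∃ p : ℕ → ℕ → ℕ → TV → Bool, rowAll p (nth [] R s) = true ∧
      ∀ i d k q, p i d k q = true → M.Row i s d k q) : (mkT N R E).Fit M where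
  n := hn
  good s d h := by
    have r := gd_iff.1 h
    exact hg s d (by omega) (by omega) (by omega) (by omega)
  row i s d k hk := by
    have h3 : at3 R s d i ≠ 0 := fun e => by
      have h4 : (mkT N R E).row i s d = unp 12 (at3 R s d i) := rfl
      rw [h4, e] at hk
      exact absurd hk (Nat.not_lt_zero _)
    have hi := lt_of_nth_ne h3
    have hd : d < (nth [] R s).length := lt_of_lt_nth hi
    obtain ⟨p, h1, h2⟩ := hr s (lt_of_lt_nth hd)
    exact @h2 _ _ _ _ (allLt_spec (allLt_spec (allLt_spec h1 d hd) i hi) k hk)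

end Vale.Agent.P236S

end
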