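import Vale.Agent.P236S.Fct

/-!
# P236S: the algebraic input from the checks
-/

noncomputable section

namespace Vale.Agent.P236S

open Vale.Agent.P236T Vale.Agent.P236N Vale.Agent.P236K Finset

/-- data for an exactness statement -/
abbrev XD : Type := TV × List Stp × List Stp

/-- data for a statement `KC` -/
abbrev KD : Type := TV × TV × Ct × List Stp

/-- the final certificates -/
structure Fn where
  /-- `δ η = 0` -/
  eta : List Ct
  /-- exactness in `(10, 29)` -/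
  e10 : XD
  /-- exactness in `(14, 30)` -/
  e14 : XD
  /-- exactness in `(18, 31)` -/
  e18 : XD
  /-- the class in `(9, 82)` -/
  z9 : TV
  /-- its condition -/
  k9 : KD
  /-- exactness in `(10, 83)` -/
  x10 : XD
  /-- the class in `(14, 84)` -/
  g14 : TV
  /-- exactness in `(14, 84)` -/
  x14 : XD
  /-- the class in `(4, 81)` -/
  z4 : TV
  /-- its condition -/
  k4 : KD
  /-- its product with `h₀` is a cycle -/
  d5 : List Ct
  /-- the class in `(18, 85)` -/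
  g18 : TV
  /-- exactness in `(18, 85)` -/
  x18 : XD
  /-- the class in `(8, 82)` -/
  z8 : TV
  /-- its condition -/
  k8 : KD
  /-- its product with `h₀` is a cycle -/
  d9 : List Ct
  /-- exactness in `(22, 86)` -/
  x22 : XD
  /-- exactness in `(26, 87)` -/
  x26 : XD

namespace Tb

variable (T : Tb) (B : ℕ) (X : Fn)

/-- the checks for the stem `106` -/
def finA : Bool :=
  Nat.blt 0 (T.n 1 27) && (T.zO B 1 27 (Nat.pow 2 0, 0) X.eta && (T.full 6 4 54 &&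
    (allLt (fun k => (T.rw 6 4 54 k).eq (0, 0)) (T.n 4 54) && (T.exO B 5 28 (0, 0) X.e10 &&
      (T.exO B 9 29 (0, 0) X.e14 && T.exO B 13 30 (0, 0) X.e18)))))

/-- the checks for the stem `322` -/
def finB : Bool :=
  (T.full 1 9 82 && (T.kcO B 9 82 X.z9 X.k9 && T.exO B 5 82 (T.app 1 9 82 X.z9) X.x10)) &&
    (T.exO B 9 83 X.g14 X.x14 &&
      ((T.full 1 4 81 && (T.kcO B 4 81 X.z4 X.k4 && T.zO B 5 82 (T.app 1 4 81 X.z4) X.d5)) &&
        (T.exO B 13 84 X.g18 X.x18 &&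
          ((T.full 1 8 82 && (T.kcO B 8 82 X.z8 X.k8 && T.zO B 9 83 (T.app 1 8 82 X.z8) X.d9)) &&
            (T.exO B 17 85 (0, 0) X.x22 && T.exO B 21 86 (0, 0) X.x26)))))

variable {T B X} {M : Mdl} {Δ : Delta} (F : T.Fit M) (hT : Td M Δ) (hI : T.Inv B (U M Δ))
include F hT hI

theorem ex_zero {a v : ℕ} {x : XD} (h : T.exO B a v (0, 0) x = true) :
    Δ.Ex (a + 5) (2 * (v + 1) : ℕ) :=
  Delta.ex_of (v := (2 * v : ℕ)) (u := (2 * (v + 1 + 1) : ℕ)) rfl rfl (by omega) (by omega)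
    fun y hy => by
      obtain ⟨c, z, hz⟩ := ex_spec F hT hI h y hy
      rw [show cb M _ _ (TV.val (0, 0)) = 0 from lc_zero fun _ _ => TV.val_zero, smul_zero,
        zero_add] at hz
      exact ⟨z, hz⟩

omit hT hI in
theorem h0_app {s d t e : ℕ} (h : T.full 1 s d = true) (g : gd t e = true) (hs : s + 1 = t)
    (hd : d + 1 = e) (z : TV) :
    H.cup hs (show ((2 * d : ℕ) : ℤ) + 2 = (2 * e : ℕ) by omega) (cb M s d z.val) h0 =
      (-1 : ℤ) ^ s • cb M t e (T.app 1 s d z).val := by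
  have r := gd_iff.1 g
  rw [F.app h (by omega) (by omega),
    cup_h0 (F.rows h (by omega) (by omega)) (F.good _ _ g) hs hd]

theorem col_of (h : T.finB B X = true) : Δ.Col 27 := by
  simp only [finB, Bool.and_eq_true] at h
  obtain ⟨⟨a1, a2, a3⟩, a4, ⟨a5, a6, a7⟩, a8, ⟨a9, b1, b2⟩, b3, b4⟩ := h
  have k1 := kc_spec F hT hI a2
  have k2 := ex_spec F hT hI a4
  have k3 := kc_spec F hT hI a6
  have k4 := ex_spec F hT hI a8
  have k5 := kc_spec F hT hI b1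
  refine ⟨⟨cb M 9 82 X.z9.val, k1, ?_⟩, ⟨cb M 14 84 X.g14.val, k2⟩, ⟨cb M 4 81 X.z4.val, k3, ?_⟩,
    ⟨cb M 18 85 X.g18.val, k4⟩, ⟨cb M 8 82 X.z8.val, k5, ?_⟩,
    Delta.tail_of (ex_zero F hT hI b3) (ex_zero F hT hI b4)⟩
  · have h1 := (ex_spec F hT hI a3).sign 9
    rw [← h0_app F (t := 10) (e := 83) a1 rfl rfl rfl] at h1
    exact h1
  · have h1 := congrArg (dl Δ 5 82) (h0_app F (t := 5) (e := 82) a5 rfl rfl rfl X.z4)
    rw [map_zsmul, z_spec F hT hI a7, smul_zero] at h1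
    exact h1
  · have h1 := congrArg (dl Δ 9 83) (h0_app F (t := 9) (e := 83) a9 rfl rfl rfl X.z8)
    rw [map_zsmul, z_spec F hT hI b2, smul_zero] at h1
    exact h1

theorem low_of (h4 : M.Span 4 54) (h : T.finA B X = true) : Start' Δ ∧
    ∀ (s : ℕ) (w : ℤ), 10 ≤ s → s + 106 = 2 * w → 2 ∣ w → Δ.Ex s w := by
  simp only [finA, Bool.and_eq_true, Nat.blt_eq] at h
  obtain ⟨a1, a2, a3, a4, a5, a6, a7⟩ := h
  obtain ⟨x, hw, hd, n, e, hx⟩ := M.start
  have h1 := z_spec F hT hI a2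
  have h2 : cb M 1 27 (TV.val (Nat.pow 2 0, 0)) = M.x 1 27 0 := by
    rw [cb, lc_apply, Finset.sum_eq_single 0 (fun j _ hj => by
      rw [TV.val_unit, if_neg hj, zero_smul]) (fun h => absurd (mem_range.2
        (F.n 1 (by omega) 27 (by omega) ▸ a1)) h), TV.val_unit, if_pos rfl, one_smul]
  rw [h2, e] at h1
  refine ⟨⟨x, hw, hd, 1, n, by norm_num, hx, h1, fun u => ?_⟩,
    (Delta.j2_of ⟨x, hw, hd, 1, n, by norm_num, hx, h1⟩ (ex_zero F hT hI a5) (ex_zero F hT hI a6)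
      (ex_zero F hT hI a7)).2⟩
  obtain ⟨f, hf⟩ := h4 u
  have h3 := (mu_cg (F.rows a3 (by omega) (by omega)) (t := 5) (e := 81) rfl rfl
    (cb_eq M _ _ f ▸ hf)).eq (F.good 5 81 rfl).2.2
  rw [lc_congr (v' := fun _ => 0) (fun k hk => by
    rw [TV.eq_iff.1 (allLt_spec a4 k (F.n 4 (by omega) 54 (by omega) ▸ hk))]
    exact funext fun _ => TV.val_zero) fun _ _ => rfl, lc_apply,
    Finset.sum_eq_zero fun _ _ => smul_zero _, map_zero] at h3
  rw [← e, ← M.m6]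
  exact h3

end Tb

theorem td_or {b : HQ 2 18} (hb : ∀ z : HQ 2 18, ∃ c : ℤ, z = c • b) (Δ : Delta) :
    Δ.δ (t := 7) (u := 20) rfl rfl b = H.cup (a := 1) (b := 2 * 3) rfl (by norm_num) h0 (bp 3) ∨
      Δ.neg.δ (t := 7) (u := 20) rfl rfl b =
        H.cup (a := 1) (b := 2 * 3) rfl (by norm_num) h0 (bp 3) := by
  obtain ⟨z, hz⟩ := Δ.toda
  obtain ⟨c, rfl⟩ := hb z
  obtain ⟨q, r, rfl, hr⟩ : ∃ q r : ℤ, c = q * 3 + r ∧ (r = 0 ∨ r = 1 ∨ r = -1) :=
    ⟨(c + 1) / 3, (c + 1) % 3 - 1, by omega, by omega⟩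
  rw [add_smul, mul_smul, three_smul, smul_zero, zero_add] at hz
  rcases hr with rfl | rfl | rfl
  · rw [zero_smul, map_zero] at hz
    exact absurd hz.symm h0_b0_ne
  · exact Or.inl (by rwa [one_smul] at hz)
  · exact Or.inr (by rwa [neg_smul, one_smul, map_neg] at hz)

/-- **The algebraic input.** -/
theorem alg_of {T : Tb} {B : ℕ} {X : Fn} {M : Mdl} (F : T.Fit M)
    (h29 : M.Span 2 9 ∧ M.n 2 9 = 1 ∧ Kl 2 12 ∧ Cg (M.m 5) (M.x 2 9 0)) (h4 : M.Span 4 54)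
    (hV : ∀ s d k l, T.cd s d k l < B → ∃ C, T.vO s d k l C = true) (hA : T.finA B X = true)
    (hB : T.finB B X = true) : A2 ∧ AlgFacts' := by
  have hb : ∀ z : HQ 2 18, ∃ c : ℤ, z = c • M.m 5 := fun z => by
    obtain ⟨f, hf⟩ := h29.1 z
    refine ⟨(f 0).val, ?_⟩
    rw [hf.eq h29.2.2.1, h29.2.2.2.eq h29.2.2.1, Mdl.cb, h29.2.1, Finset.sum_range_one]
    exact (natCast_zsmul (M.x 2 9 0) _).symm
  refine ⟨a2_of _ hb, 27, by norm_num, per, fun Δ => ?_⟩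
  rcases (td_or hb Δ : Td M Δ ∨ Td M Δ.neg) with hT | hT
  · have hI := Tb.inv_of F hT hV
    exact ⟨(Tb.low_of F hT hI h4 hA).1, (Tb.low_of F hT hI h4 hA).2, Tb.col_of F hT hI hB⟩
  · have hI := Tb.inv_of F hT hV
    obtain ⟨⟨x, hw, hd, c, n, h1, h2, h3, h5⟩, h6⟩ := Tb.low_of F hT hI h4 hA
    exact ⟨⟨x, hw, hd, c, n, h1, h2, Delta.neg_δ_eq_zero.1 h3, h5⟩,
      fun s w k1 k2 k3 => Delta.Ex.of_neg (h6 s w k1 k2 k3), (Tb.col_of F hT hI hB).of_neg⟩

end Vale.Agent.P236S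

end
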