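import Vale.Agent.P236S.Lin

/-!
# P236S: the checker for the values of the differential

A table `T` contains the numbers of named classes, the products and a code for every coordinate
`U s d k l`: the code is congruent to the value modulo three, and a certificate for a coordinate
may use all coordinates with a smaller code.
-/

noncomputable section

namespace Vale.Agent.P236S

open Vale.Agent.P236T Vale.Agent.P236N Finset

/-- the name of a coordinate -/
abbrev K4 : Type := ℕ × ℕ × ℕ × ℕ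

/-- an affine form -/
abbrev Acc : Type := ℕ × List (K4 × ℕ)

/-- an equation `(i, s, d, k, l)` and its coefficient -/
abbrev Tag : Type := ℕ × ℕ × ℕ × ℕ × ℕ × ℕ

/-- list access -/
def nth {α : Type} (x : α) (L : List α) : ℕ → α :=
  List.rec (fun _ => x) (fun a _ r n => Nat.casesOn n a r) L

theorem nth_eq {α : Type} (x : α) : ∀ (L : List α) (n : ℕ), nth x L n = L.getD n x
  | [], _ => rfl
  | _ :: _, 0 => rfl
  | _ :: L, n + 1 => nth_eq x L n

/-- an entry as a number -/
def cf (p : TV) (l : ℕ) : ℕ :=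
  Nat.add (Nat.mod (Nat.shiftRight p.1 l) 2) (Nat.mul 2 (Nat.mod (Nat.shiftRight p.2 l) 2))

theorem cf_eq (p : TV) (l : ℕ) : (cf p l : F3) = p.val l := by
  have h : ∀ x : ℕ, Nat.mod (Nat.shiftRight x l) 2 = if x.testBit l then 1 else 0 := fun x => by
    rw [Nat.testBit_eq_decide_div_mod_eq, Nat.shiftRight_eq, Nat.shiftRight_eq_div_pow, TV.mod_eq]
    rcases Nat.mod_two_eq_zero_or_one (x / 2 ^ l) with h | h <;> simp [h]
  rw [cf, h, h, TV.val]
  cases p.1.testBit l <;> cases p.2.testBit l <;> decide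

/-- equality of names -/
def keq (v w : K4) : Bool :=
  Nat.beq v.1 w.1 && (Nat.beq v.2.1 w.2.1 && (Nat.beq v.2.2.1 w.2.2.1 && Nat.beq v.2.2.2 w.2.2.2))

theorem eq_of_keq {v w : K4} (h : keq v w = true) : v = w := by
  simpa [keq, Prod.ext_iff] using h

/-- insertion of a term -/
def ins (v : K4) (c : ℕ) (L : List (K4 × ℕ)) : List (K4 × ℕ) :=
  List.rec [(v, c)] (fun x r ih => bif keq v x.1 then (x.1, Nat.add x.2 c) :: r else x :: ih) L

/-- iteration -/
def loop (g : ℕ → Acc → Acc) (a : Acc) (n : ℕ) : Acc := Nat.rec a (fun j r => g j r) n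

/-- bounded universal quantifier -/
def allLt (p : ℕ → Bool) (n : ℕ) : Bool := Nat.rec true (fun j r => p j && r) n

theorem allLt_spec {p : ℕ → Bool} : ∀ {n : ℕ}, allLt p n = true → ∀ j < n, p j = true
  | 0, _, _, h => by omega
  | n + 1, h, j, hj => by
    have h1 : (p n && allLt p n) = true := h
    rw [Bool.and_eq_true] at h1
    rcases Nat.lt_succ_iff_lt_or_eq.1 hj with h2 | rfl
    exacts [allLt_spec h1.2 j h2, h1.1]

/-- divisibility by three -/
def z3 (c : ℕ) : Bool := Nat.beq (Nat.mod c 3) 0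

theorem z3_iff {c : ℕ} : z3 c = true ↔ (c : F3) = 0 := by
  rw [z3, Nat.beq_eq, TV.mod_eq, ZMod.natCast_eq_zero_iff, Nat.dvd_iff_mod_eq_zero]

/-- all coefficients vanish -/
def fin (a : Acc) : Bool := a.2.all fun x => z3 x.2

/-- the range in which the named classes are a basis -/
def gd (s d : ℕ) : Bool :=
  Nat.ble 5 s && (Nat.ble s 32 && (Nat.ble d 90 && (Nat.ble 6 s || Nat.ble d 87)))

theorem gd_iff {s d : ℕ} : gd s d = true ↔ 5 ≤ s ∧ s ≤ 32 ∧ d ≤ 90 ∧ (6 ≤ s ∨ d ≤ 87) := by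
  simp [gd]

section

variable (u : ℕ → ℕ → ℕ → ℕ → F3)

/-- the value of the linear part -/
def evL (L : List (K4 × ℕ)) : F3 := (L.map fun x => x.2 * u x.1.1 x.1.2.1 x.1.2.2.1 x.1.2.2.2).sum

/-- the value of a form -/
def ev (a : Acc) : F3 := a.1 + evL u a.2

variable {u}

theorem evL_ins (s d k l c : ℕ) : ∀ L, evL u (ins (s, d, k, l) c L) = evL u L + c * u s d k l
  | [] => by simp [ins, evL]
  | x :: L => by
    have h : ins (s, d, k, l) c (x :: L) = bif keq (s, d, k, l) x.1 then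
      (x.1, Nat.add x.2 c) :: L else x :: ins (s, d, k, l) c L := rfl
    have ih := evL_ins s d k l c L
    rw [h]
    cases h1 : keq (s, d, k, l) x.1
    · simp only [evL, cond_false, List.map_cons, List.sum_cons] at ih ⊢
      rw [ih, add_assoc]
    · simp only [evL, cond_true, List.map_cons, List.sum_cons, ← eq_of_keq h1, Nat.add_eq]
      push_cast
      ring

theorem ev_fin {a : Acc} (h : fin a = true) : ev u a = a.1 := by
  rw [ev, evL, List.sum_eq_zero, add_zero]
  intro y hy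
  obtain ⟨x, hx, rfl⟩ := List.mem_map.1 hy
  rw [z3_iff.1 (List.all_eq_true.1 h x hx), zero_mul]

theorem ev_loop {g : ℕ → Acc → Acc} {h : ℕ → F3} (a : Acc) : ∀ n : ℕ,
    (∀ j < n, ∀ b, ev u (g j b) = ev u b + h j) → ev u (loop g a n) = ev u a + ∑ j ∈ range n, h j
  | 0, _ => by simp [loop]
  | n + 1, H0 => by
    rw [Finset.sum_range_succ, ← add_assoc, ← ev_loop a n fun j hj => H0 j (by omega)]
    exact H0 n (by omega) _

end

/-- the tables -/
structure Tb where
  /-- the numbers of named classes -/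
  n : ℕ → ℕ → ℕ
  /-- the products -/
  row : ℕ → ℕ → ℕ → List TV
  /-- the codes -/
  cd : ℕ → ℕ → ℕ → ℕ → ℕ

namespace Tb

variable (T : Tb) (τ : ℕ)

/-- a row -/
def rw (i s d k : ℕ) : TV := nth (0, 0) (T.row i s d) k

/-- all rows are present -/
def full (i s d : ℕ) : Bool := Nat.beq (T.row i s d).length (T.n s d) && (T.row i s d).all TV.wf

/-- a product -/
def app (i s d : ℕ) (z : TV) : TV := TV.mv (T.row i s d) z.1 z.2

/-- addition of `c * U s d k l` -/
def term (s d k l c : ℕ) (a : Acc) : Acc :=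
  bif z3 c then a else Prod.rec (fun a1 a2 => bif Nat.blt (T.cd s d k l) τ then
    (Nat.add a1 (Nat.mul c (T.cd s d k l)), a2) else (a1, ins (s, d, k, l) c a2)) a

/-- the product with `h₀ b₀ ^ 3` -/
def kp (s d k : ℕ) : TV := T.app 1 (2 + (2 + (2 + s))) (3 + (3 + (3 + d)))
  (T.app 4 (2 + (2 + s)) (3 + (3 + d)) (T.app 4 (2 + s) (3 + d) (T.rw 4 s d k)))

/-- a Leibniz rule -/
def ruleA (i s d k l c : ℕ) (a : Acc) : Acc :=
  loop (fun j => T.term τ (mA i + s) (mF i + d) j l (Nat.mul c (cf (T.rw i s d k) j)))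
    (loop (fun j => T.term τ s d k j
        (Nat.mul (Nat.mul 2 (Nat.mul (sg i) c)) (cf (T.rw i (s + 5) (d + 1) j) l)))
      (bif Nat.beq i 5 then (Nat.add a.1 (Nat.mul (Nat.mul 2 c) (cf (T.kp s d k) l)), a.2) else a)
      (T.n (s + 5) (d + 1))) (T.n (mA i + s) (mF i + d))

/-- its side conditions -/
def ruleO (i s d k l : ℕ) : Bool :=
  gd (s + 5) (d + 1) && (gd (mA i + s + 5) (mF i + d + 1) &&
    (Nat.blt l (T.n (mA i + s + 5) (mF i + d + 1)) && (Nat.blt k (T.row i s d).length &&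
      (T.full i (s + 5) (d + 1) && (Nat.ble i 4 || (Nat.beq i 5 &&
        (Nat.blt k (T.row 4 s d).length && (T.full 4 (2 + s) (3 + d) &&
          (T.full 4 (2 + (2 + s)) (3 + (3 + d)) &&
            T.full 1 (2 + (2 + (2 + s))) (3 + (3 + (3 + d))))))))))))

/-- the square of the differential -/
def ddA (s d k l c : ℕ) (a : Acc) : Acc :=
  loop (fun j => bif Nat.blt (T.cd s d k j) τ then
    T.term τ (s + 5) (d + 1) j l (Nat.mul c (T.cd s d k j)) else
    T.term τ s d k j (Nat.mul c (T.cd (s + 5) (d + 1) j l))) a (T.n (s + 5) (d + 1))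

/-- its side conditions -/
def ddO (s d k l : ℕ) : Bool :=
  gd (s + 5) (d + 1) && (gd (s + 5 + 5) (d + 1 + 1) && (Nat.blt l (T.n (s + 5 + 5) (d + 1 + 1)) &&
    allLt (fun j => Nat.blt (T.cd s d k j) τ || Nat.blt (T.cd (s + 5) (d + 1) j l) τ)
      (T.n (s + 5) (d + 1))))

/-- an equation -/
def eqA (t : Tag) (a : Acc) : Acc :=
  bif Nat.beq t.1 7 then T.ddA τ t.2.1 t.2.2.1 t.2.2.2.1 t.2.2.2.2.1 t.2.2.2.2.2 a
  else T.ruleA τ t.1 t.2.1 t.2.2.1 t.2.2.2.1 t.2.2.2.2.1 t.2.2.2.2.2 a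

/-- its side conditions -/
def eqO (t : Tag) : Bool :=
  bif Nat.beq t.1 7 then T.ddO τ t.2.1 t.2.2.1 t.2.2.2.1 t.2.2.2.2.1
  else T.ruleO t.1 t.2.1 t.2.2.1 t.2.2.2.1 t.2.2.2.2.1

/-- addition of the equations of a certificate -/
def run (C : List Tag) (a : Acc) : Acc := List.rec a (fun t _ r => T.eqA τ t r) C

/-- the certificate is valid -/
def runO (C : List Tag) (a : Acc) : Bool := C.all (T.eqO τ) && fin (T.run τ C a)

/-- the check for one coordinate -/
def vO (s d k l : ℕ) (C : List Tag) : Bool :=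
  T.runO (T.cd s d k l) C (0, [((s, d, k, l), 1)]) &&
    z3 (Nat.add (T.run (T.cd s d k l) C (0, [((s, d, k, l), 1)])).1 (Nat.mul 2 (T.cd s d k l)))

/-- The coordinates with a small code are known. -/
def Inv (u : ℕ → ℕ → ℕ → ℕ → F3) : Prop := ∀ s d k l, T.cd s d k l < τ → u s d k l = T.cd s d k l

/-- The tables describe the model. -/
structure Fit (M : Mdl) : Prop where
  n : ∀ s ≤ 32, ∀ d ≤ 90, M.n s d = T.n s d
  row : ∀ i s d, ∀ k < (T.row i s d).length, M.Row i s d k (T.rw i s d k)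
  good : ∀ s d, gd s d = true → M.Good s d

variable {T τ} {M : Mdl} {Δ : Delta} {i s d k l : ℕ}

theorem ev_term {u : ℕ → ℕ → ℕ → ℕ → F3} (h : T.Inv τ u) (s d k l c : ℕ) (a : Acc) :
    ev u (T.term τ s d k l c a) = ev u a + c * u s d k l := by
  rw [term]
  cases h1 : z3 c
  · cases h2 : Nat.blt (T.cd s d k l) τ
    · simp only [cond_false, ev, evL_ins, add_assoc]
    · simp only [cond_false, cond_true, ev, h s d k l (Nat.blt_eq.mp h2), Nat.add_eq, Nat.mul_eq]
      push_cast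
      ring
  · rw [z3_iff.1 h1, zero_mul, add_zero, cond_true]

theorem ev_terms {u : ℕ → ℕ → ℕ → ℕ → F3} (h : T.Inv τ u) (s d : ℕ) (k l c : ℕ → ℕ) (a : Acc)
    (n : ℕ) : ev u (loop (fun j => T.term τ s d (k j) (l j) (c j)) a n) =
      ev u a + ∑ j ∈ range n, c j * u s d (k j) (l j) :=
  ev_loop a n fun _ _ b => ev_term h _ _ _ _ _ b

theorem Fit.rows (F : T.Fit M) (h : T.full i s d = true) (hs : s ≤ 32) (hd : d ≤ 90) :
    Rows M i s d (T.rw i s d) := by
  simp only [full, Bool.and_eq_true, Nat.beq_eq] at h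
  exact fun k hk => F.row i s d k (by rwa [h.1, ← F.n s hs d hd])

theorem Fit.app (F : T.Fit M) (h : T.full i s d = true) (hs : s ≤ 32) (hd : d ≤ 90) (z : TV) :
    (T.app i s d z).val = lc (M.n s d) (fun k => (T.rw i s d k).val) z.val := by
  simp only [full, Bool.and_eq_true, Nat.beq_eq, List.all_eq_true] at h
  funext l
  rw [Tb.app, (TV.mv_spec _ _ _ h.2).2, lc_eval, lc_apply, h.1, F.n s hs d hd]
  simp only [rw, nth_eq, smul_eq_mul]

theorem Fit.mu (F : T.Fit M) (h : T.full i s d = true) (hs : s ≤ 32) (hd : d ≤ 90) {t e : ℕ}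
    (h1 : mA i + s = t) (h2 : mF i + d = e) {y : HD s d} {z : TV} (H0 : Cg y (cb M s d z.val)) :
    Cg (mu M i h1 h2 y) (cb M t e (T.app i s d z).val) :=
  F.app h hs hd z ▸ mu_cg (F.rows h hs hd) h1 h2 H0

theorem ev_rule (F : T.Fit M) (hT : Td M Δ) (hI : T.Inv τ (U M Δ))
    (h : T.ruleO i s d k l = true) (c : ℕ) (a : Acc) :
    ev (U M Δ) (T.ruleA τ i s d k l c a) = ev (U M Δ) a := by
  simp only [ruleO, Bool.and_eq_true, Bool.or_eq_true, Nat.blt_eq, Nat.ble_eq, Nat.beq_eq] at h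
  obtain ⟨g1, g2, hl, hk, hQ, h5⟩ := h
  have r1 := gd_iff.1 g1
  have r2 := gd_iff.1 g2
  rw [← F.n _ (by omega) _ (by omega)] at hl
  rw [ruleA, ev_terms hI _ _ (fun j => j) fun _ => l, ev_terms hI _ _ (fun _ => k) fun j => j,
    ← F.n _ (by omega) _ (by omega), ← F.n _ (by omega) _ (by omega)]
  have key : ∀ κ : F3, lc (M.n (mA i + s) (mF i + d)) (fun j => U M Δ (mA i + s) (mF i + d) j l)
      (T.rw i s d k).val = κ + sg i * lc (M.n (s + 5) (d + 1))
        (fun j => (T.rw i (s + 5) (d + 1) j).val l) (U M Δ s d k) → ∀ x y : F3,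
      x = y + 2 * c * κ → x + ∑ j ∈ range (M.n (s + 5) (d + 1)),
        (Nat.mul (Nat.mul 2 (Nat.mul (sg i) c)) (cf (T.rw i (s + 5) (d + 1) j) l) : F3) *
          U M Δ s d k j + ∑ j ∈ range (M.n (mA i + s) (mF i + d)),
            (Nat.mul c (cf (T.rw i s d k) j) : F3) * U M Δ (mA i + s) (mF i + d) j l = y := by
    intro κ e x y hx
    simp only [lc_apply, smul_eq_mul] at e
    simp only [Nat.mul_eq, Nat.cast_mul, cf_eq, mul_assoc, ← Finset.mul_sum]
    rw [e, hx, Finset.sum_congr rfl fun j _ => mul_comm _ (U M Δ s d k j)]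
    have h3 : (3 : F3) = 0 := by decide
    push_cast
    linear_combination (c * κ + c * sg i * ∑ j ∈ range (M.n (s + 5) (d + 1)),
      U M Δ s d k j * (T.rw i (s + 5) (d + 1) j).val l) * h3
  have hR := F.rows hQ (by omega) (by omega)
  rcases h5 with h4 | ⟨rfl, hk', f1, f2, f3⟩
  · have e := eq_rule (Δ := Δ) (c := 0) rfl rfl ((leib_low h4 _ _ _).trans (zero_add _).symm)
      (Cg.of_eq (map_zero _).symm) (F.row i s d k hk) hR (F.good _ _ g1) (F.good _ _ g2) hl
    rw [show Nat.beq i 5 = false by rw [← Bool.not_eq_true, Nat.beq_eq]; omega, cond_false]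
    exact key _ e _ _ (by simp)
  · simp only [mA, mF] at r2
    have e := eq_rule (Δ := Δ) (c := (T.kp s d k).val) rfl rfl (leib_five hT _)
      (F.mu f3 (by omega) (by omega) _ _ (F.mu f2 (by omega) (by omega) _ _
        (F.mu f1 (by omega) (by omega) _ _ (mu_x (F.row 4 s d k hk') _ _))))
      (F.row 5 s d k hk) hR (F.good _ _ g1) (F.good _ _ g2) hl
    refine key _ e _ _ ?_
    simp only [Nat.beq_refl, cond_true, ev, Nat.add_eq, Nat.mul_eq, Nat.cast_add, Nat.cast_mul,
      cf_eq, Nat.cast_ofNat]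
    ring

theorem ev_dd (F : T.Fit M) (hI : T.Inv τ (U M Δ)) (h : T.ddO τ s d k l = true) (c : ℕ)
    (a : Acc) : ev (U M Δ) (T.ddA τ s d k l c a) = ev (U M Δ) a := by
  simp only [ddO, Bool.and_eq_true, Nat.blt_eq] at h
  obtain ⟨g1, g2, hl, hj⟩ := h
  have r1 := gd_iff.1 g1
  have r2 := gd_iff.1 g2
  rw [← F.n _ (by omega) _ (by omega)] at hl
  have e := eq_dd (Δ := Δ) (k := k) (F.good _ _ g1) (F.good _ _ g2) hl
  rw [ddA, ev_loop (h := fun j => c * (U M Δ s d k j • U M Δ (s + 5) (d + 1) j l)),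
    ← Finset.mul_sum, ← F.n _ (by omega) _ (by omega), ← lc_apply, e, mul_zero, add_zero]
  intro j hj' b
  have h1 := allLt_spec hj j hj'
  cases h2 : Nat.blt (T.cd s d k j) τ
  · rw [h2, Bool.false_or, Nat.blt_eq] at h1
    rw [cond_false, ev_term hI, hI _ _ _ _ h1, Nat.mul_eq, Nat.cast_mul, smul_eq_mul]
    ring
  · rw [cond_true, ev_term hI, hI _ _ _ _ (Nat.blt_eq.mp h2), Nat.mul_eq, Nat.cast_mul, smul_eq_mul]
    ring

theorem ev_run (F : T.Fit M) (hT : Td M Δ) (hI : T.Inv τ (U M Δ)) (a : Acc) : ∀ C : List Tag,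
    C.all (T.eqO τ) = true → ev (U M Δ) (T.run τ C a) = ev (U M Δ) a
  | [], _ => rfl
  | t :: C, h => by
    rw [List.all_cons, Bool.and_eq_true] at h
    rw [← ev_run F hT hI a C h.2]
    have h1 := h.1
    change ev _ (T.eqA τ t _) = _
    rw [eqO] at h1
    rw [eqA]
    cases h2 : Nat.beq t.1 7 <;> rw [h2] at h1
    exacts [ev_rule F hT hI h1 _ _, ev_dd F hI h1 _ _]

theorem run_spec (F : T.Fit M) (hT : Td M Δ) (hI : T.Inv τ (U M Δ)) {C : List Tag} {a : Acc}
    (h : T.runO τ C a = true) : ev (U M Δ) a = (T.run τ C a).1 := by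
  rw [runO, Bool.and_eq_true] at h
  rw [← ev_run F hT hI a C h.1, ev_fin h.2]

/-- **All coordinates with a certificate are known.** -/
theorem inv_of (F : T.Fit M) (hT : Td M Δ) {B : ℕ}
    (h : ∀ s d k l, T.cd s d k l < B → ∃ C, T.vO s d k l C = true) : T.Inv B (U M Δ) := by
  have key : ∀ τ ≤ B, T.Inv τ (U M Δ) := fun τ => by
    induction τ with
    | zero => exact fun _ _ _ _ _ h => by omega
    | succ τ ih =>
      intro hτ s d k l h1
      rcases Nat.lt_succ_iff_lt_or_eq.1 h1 with h2 | h2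
      · exact ih (by omega) s d k l h2
      obtain ⟨C, hC⟩ := h s d k l (by omega)
      rw [vO, Bool.and_eq_true, z3_iff, h2] at hC
      have h3 := run_spec F hT (ih (by omega)) hC.1
      have h4 := hC.2
      have h5 : (3 : F3) = 0 := by decide
      simp only [Nat.add_eq, Nat.mul_eq, Nat.cast_add, Nat.cast_mul, ← h3, ev, evL, List.map_cons,
        List.map_nil, List.sum_cons, List.sum_nil, Nat.cast_ofNat, Nat.cast_zero,
        Nat.cast_one] at h4
      rw [h2]
      linear_combination h4 - τ * h5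
  exact key B le_rfl

end Tb

end Vale.Agent.P236S

end
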