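import Vale.Agent.P236S.Chk
import Vale.Agent.P236K.PwG

/-!
# P236S: the checker for the final statements
-/

noncomputable section

namespace Vale.Agent.P236S

open Vale.Agent.P236T Vale.Agent.P236N Finset

/-- a certificate -/
abbrev Ct : Type := List Tag

/-- a step of an elimination -/
abbrev Stp : Type := TV × TV × List Ct

/-- the pairing -/
def dot (φ y : TV) (n : ℕ) : ℕ :=
  Nat.rec 0 (fun j r => Nat.add r (Nat.mul (cf y j) (cf φ j))) n

theorem dot_eq (φ y : TV) (n : ℕ) : (dot φ y n : F3) = lc n φ.val y.val := by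
  rw [lc_apply]
  induction n with
  | zero => rfl
  | succ n ih =>
    rw [Finset.sum_range_succ, ← ih, ← cf_eq, ← cf_eq, smul_eq_mul, ← Nat.cast_mul, ← Nat.cast_add]
    rfl

/-- `y - c z` -/
def axpy (c : ℕ) (z y : TV) : TV :=
  bif z3 c then y else bif z3 (Nat.add c 1) then y.add z else y.add z.neg

theorem val_axpy (c : ℕ) {z y : TV} (hz : z.wf = true) (hy : y.wf = true) :
    (axpy c z y).val = y.val - (c : F3) • z.val := by
  funext k
  rw [axpy, Pi.sub_apply, Pi.smul_apply, smul_eq_mul]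
  cases h1 : z3 c
  · cases h2 : z3 (Nat.add c 1)
    · rw [← Bool.not_eq_true, z3_iff] at h1 h2
      have h3 : ∀ x : F3, x ≠ 0 → x + 1 ≠ 0 → x = 1 := by decide
      rw [cond_false, cond_false, TV.val_add hy (TV.wf_neg hz), TV.val_neg,
        h3 c h1 (by simpa using h2), one_mul, sub_eq_add_neg]
    · have h3 : (c : F3) = -1 := eq_neg_of_add_eq_zero_left (by simpa using z3_iff.1 h2)
      rw [cond_false, cond_true, TV.val_add hy hz, h3, neg_one_mul, sub_neg_eq_add]
  · rw [z3_iff.1 h1, zero_mul, sub_zero, cond_true]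

/-- one step -/
def stp (v : TV → Ct → ℕ) (z : TV) (Y : List TV) : List Ct → List TV :=
  List.rec (fun _ => []) (fun y _ r Cs => axpy (v y (Cs.headD [])) z y :: r Cs.tail) Y

/-- its side conditions -/
def stpO (o : TV → Ct → Bool) (Y : List TV) : List Ct → Bool :=
  List.rec (fun _ => true) (fun y _ r Cs => y.wf && (o y (Cs.headD []) && r Cs.tail)) Y

theorem stp_spec {v : TV → Ct → ℕ} {o : TV → Ct → Bool} {z : TV} (hz : z.wf = true) :
    ∀ {Y : List TV} {Cs : List Ct}, stpO o Y Cs = true → ∀ y ∈ Y, ∃ C, o y C = true ∧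
      ∃ y' ∈ stp v z Y Cs, TV.val y' = TV.val y - (v y C : F3) • z.val
  | [], _, _, _, h => by simp at h
  | x :: Y, Cs, h, y, hy => by
    have h1 : (x.wf && (o x (Cs.headD []) && stpO o Y Cs.tail)) = true := h
    have h2 : stp v z (x :: Y) Cs = axpy (v x (Cs.headD [])) z x :: stp v z Y Cs.tail := rfl
    simp only [Bool.and_eq_true] at h1
    rcases List.mem_cons.1 hy with rfl | hy
    · exact ⟨_, h1.2.1, _, h2 ▸ List.mem_cons_self, val_axpy _ hz h1.1⟩
    · obtain ⟨C, h3, y', h4, h5⟩ := stp_spec hz h1.2.2 y hy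
      exact ⟨C, h3, y', h2 ▸ List.mem_cons_of_mem _ h4, h5⟩

namespace Tb

variable (T : Tb) (B : ℕ)

/-- the form `φ (δ z)` -/
def frm (s d : ℕ) (z φ : TV) : Acc :=
  loop (fun k a => loop (fun l => T.term B s d k l (Nat.mul (cf z k) (cf φ l))) a
    (T.n (s + 5) (d + 1))) (0, []) (T.n s d)

/-- its value -/
def fv (s d : ℕ) (z φ : TV) (C : Ct) : ℕ := (T.run B C (T.frm B s d z φ)).1

/-- the side conditions -/
def fO (s d : ℕ) (z φ : TV) (C : Ct) : Bool := gd (s + 5) (d + 1) && T.runO B C (T.frm B s d z φ)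

/-- a spanning list for the kernel -/
def kerR (s d : ℕ) (S : List Stp) : List TV :=
  List.rec (units (T.n s d)) (fun x _ r => stp (fun y => T.fv B s d y x.1) x.2.1 r x.2.2) S

/-- the side conditions -/
def kerO (s d : ℕ) (S : List Stp) : Bool :=
  List.rec true (fun x S r =>
    r && (x.2.1.wf && stpO (fun y => T.fO B s d y x.1) (T.kerR B s d S) x.2.2)) S

/-- functionals which cut out the span of `g` and the image -/
def imR (a v : ℕ) (g ψ : TV) (S : List Stp) : List TV :=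
  List.rec (stp (fun φ _ => dot φ g (T.n (a + 5) (v + 1))) ψ (units (T.n (a + 5) (v + 1))) [])
    (fun x _ r => stp (fun φ => T.fv B a v x.1 φ) x.2.1 r x.2.2) S

/-- the side conditions -/
def imO (a v : ℕ) (g ψ : TV) (S : List Stp) : Bool :=
  List.rec (ψ.wf && stpO (fun _ _ => true) (units (T.n (a + 5) (v + 1))) []) (fun x S r =>
    r && (x.2.1.wf && stpO (fun φ => T.fO B a v x.1 φ) (T.imR B a v g ψ S) x.2.2)) S

/-- the check for `ExD` -/
def exO (a v : ℕ) (g : TV) (x : TV × List Stp × List Stp) : Bool :=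
  gd (a + 5) (v + 1) && (gd (a + 5 + 5) (v + 1 + 1) && (T.kerO B (a + 5) (v + 1) x.2.1 &&
    (T.imO B a v g x.1 x.2.2 && (T.kerR B (a + 5) (v + 1) x.2.1).all fun y =>
      (T.imR B a v g x.1 x.2.2).all fun φ => z3 (dot φ y (T.n (a + 5) (v + 1))))))

/-- the check for `KCD` -/
def kcO (s d : ℕ) (z : TV) (x : TV × TV × Ct × List Stp) : Bool :=
  T.full 4 (s + 5) (d + 1) && (T.full 1 (s + 6) (d + 3) && (gd (s + 6) (d + 3) &&
    (gd (s + 6 + 5) (d + 3 + 1) && (gd (s + 7) (d + 4) && (T.kerO B (s + 6) (d + 3) x.2.2.2 &&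
      (((T.kerR B (s + 6) (d + 3) x.2.2.2).all fun y =>
        z3 (dot x.1 (T.app 1 (s + 6) (d + 3) y) (T.n (s + 7) (d + 4)))) &&
        (allLt (fun k => z3 (Nat.add (dot x.1 (T.rw 4 (s + 5) (d + 1) k) (T.n (s + 7) (d + 4)))
          (Nat.mul 2 (cf x.2.1 k)))) (T.n (s + 5) (d + 1)) &&
          (T.fO B s d z x.2.1 x.2.2.1 && !z3 (T.fv B s d z x.2.1 x.2.2.1)))))))))

/-- the check for `δ z = 0` -/
def zO (s d : ℕ) (z : TV) (Cs : List Ct) : Bool := gd (s + 5) (d + 1) &&
  stpO (fun φ C => T.fO B s d z φ C && z3 (T.fv B s d z φ C)) (units (T.n (s + 5) (d + 1))) Cs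

variable {T B} {M : Mdl} {Δ : Delta} {s d a v : ℕ} (F : T.Fit M) (hT : Td M Δ)
  (hI : T.Inv B (U M Δ))
include F hT hI

theorem fv_spec {z φ : TV} {C : Ct} (h : T.fO B s d z φ C = true) :
    (T.fv B s d z φ C : F3) = lc (M.n (s + 5) (d + 1)) φ.val (Dm M Δ s d z.val) := by
  rw [fO, Bool.and_eq_true] at h
  have r := gd_iff.1 h.1
  rw [fv, ← run_spec F hT hI h.2, frm,
    ev_loop _ _ fun k _ b => ev_terms hI s d (fun _ => k) (fun l => l) _ b _, Dm, lc_lc,
    ← F.n _ (by omega) _ (by omega), ← F.n _ (by omega) _ (by omega)]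
  simp only [ev, evL, List.map_nil, List.sum_nil, Nat.cast_zero, zero_add, lc_apply, Nat.mul_eq,
    Nat.cast_mul, cf_eq, smul_eq_mul, Finset.mul_sum]
  exact Finset.sum_congr rfl fun k _ => Finset.sum_congr rfl fun l _ => by ring

theorem ker_spec (hs : s ≤ 32) (hd : d ≤ 90) : ∀ {S : List Stp}, T.kerO B s d S = true →
    Ker M Δ s d (T.kerR B s d S)
  | [], _ => by
    have h : T.kerR B s d [] = units (T.n s d) := rfl
    rw [h, ← F.n s hs d hd]
    exact ker_init
  | x :: S, h => by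
    have h1 : (T.kerO B s d S &&
      (x.2.1.wf && stpO (fun y => T.fO B s d y x.1) (T.kerR B s d S) x.2.2)) = true := h
    simp only [Bool.and_eq_true] at h1
    refine (ker_spec hs hd h1.1).step x.1.val x.2.1.val fun y hy => ?_
    obtain ⟨C, h2, h3⟩ := stp_spec (v := fun y => T.fv B s d y x.1) h1.2.1 h1.2.2 y hy
    rwa [fv_spec F hT hI h2] at h3

theorem im_spec {g ψ : TV} (h0 : gd (a + 5) (v + 1) = true) : ∀ {S : List Stp},
    T.imO B a v g ψ S = true → Im (M.n (a + 5) (v + 1)) (Wd M Δ a v g.val) (T.imR B a v g ψ S)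
  | [], h => by
    have r := gd_iff.1 h0
    have h1 : (ψ.wf && stpO (fun _ _ => true) (units (T.n (a + 5) (v + 1))) []) = true := h
    rw [Bool.and_eq_true] at h1
    refine (wd_init g.val).step (mem_wd _) (ψ := ψ.val) fun φ hφ => ?_
    rw [F.n _ (by omega) _ (by omega)] at hφ ⊢
    obtain ⟨C, -, h3⟩ := stp_spec (v := fun φ _ => dot φ g (T.n (a + 5) (v + 1))) h1.1 h1.2 φ hφ
    rwa [dot_eq] at h3
  | x :: S, h => by
    have h1 : (T.imO B a v g ψ S &&
      (x.2.1.wf && stpO (fun φ => T.fO B a v x.1 φ) (T.imR B a v g ψ S) x.2.2)) = true := h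
    simp only [Bool.and_eq_true] at h1
    refine (im_spec h0 h1.1).step (dm_mem_wd (F.good _ _ h0) _ x.1.val) (ψ := x.2.1.val)
      fun φ hφ => ?_
    obtain ⟨C, h2, h3⟩ := stp_spec (v := fun φ => T.fv B a v x.1 φ) h1.2.1 h1.2.2 φ hφ
    rwa [fv_spec F hT hI h2] at h3

theorem ex_spec {g : TV} {x : TV × List Stp × List Stp} (h : T.exO B a v g x = true) :
    ExD Δ a v (cb M _ _ g.val) := by
  simp only [exO, Bool.and_eq_true, List.all_eq_true, z3_iff, dot_eq] at h
  obtain ⟨g1, g2, h1, h2, h3⟩ := h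
  have r := gd_iff.1 g1
  rw [← F.n _ (by omega) _ (by omega)] at h3
  exact ex_of (F.good _ _ g1) (F.good _ _ g2) (ker_spec F hT hI (by omega) (by omega) h1)
    (im_spec F hT hI g1 h2) h3

theorem kc_spec {z : TV} {x : TV × TV × Ct × List Stp} (h : T.kcO B s d z x = true) :
    KCD Δ s d (cb M s d z.val) := by
  simp only [kcO, Bool.and_eq_true, List.all_eq_true, z3_iff, dot_eq, Bool.not_eq_true',
    ← Bool.not_eq_true] at h
  obtain ⟨f1, f2, g2, g3, g4, h1, h2, h3, h4, h5⟩ := h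
  have r := gd_iff.1 g4
  have g1 : gd (s + 5) (d + 1) = true := (Bool.and_eq_true _ _ ▸ h4 :).1
  rw [← F.n _ (by omega) _ (by omega)] at h2 h3
  rw [← F.n _ (by omega) _ (by omega)] at h3
  refine kc_of (φ := x.1.val) (F.rows f1 (by omega) (by omega)) (F.rows f2 (by omega) (by omega))
    (F.good _ _ g1) (F.good _ _ g2) (F.good _ _ g3) (F.good _ _ g4)
    (ker_spec F hT hI (by omega) (by omega) h1)
    (fun y hy => F.app f2 (by omega) (by omega) y ▸ h2 y hy) fun e => h5 ?_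
  rw [fv_spec F hT hI h4, ← e]
  refine lc_congr (fun k hk => ?_) fun _ _ => rfl
  have h6 := z3_iff.1 (allLt_spec h3 k hk)
  have h7 : (3 : F3) = 0 := by decide
  simp only [Nat.add_eq, Nat.mul_eq, Nat.cast_add, Nat.cast_mul, dot_eq, cf_eq,
    Nat.cast_ofNat] at h6
  linear_combination x.2.1.val k * h7 - h6

theorem z_spec {z : TV} {Cs : List Ct} (h : T.zO B s d z Cs = true) :
    dl Δ s d (cb M s d z.val) = 0 := by
  rw [zO, Bool.and_eq_true] at h
  have r := gd_iff.1 h.1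
  refine dl_eq_zero (F.good _ _ h.1) fun l hl => ?_
  obtain ⟨C, h1, -⟩ := stp_spec (v := fun _ _ => 0) TV.wf_zero h.2 _
    (unit_mem (F.n (s + 5) (by omega) (d + 1) (by omega) ▸ hl))
  rw [Bool.and_eq_true, z3_iff] at h1
  exact (lc_unit hl _).symm.trans ((fv_spec F hT hI h1.1).symm.trans h1.2)

end Tb

end Vale.Agent.P236S

end
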