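import Vale.Agent.P236S.Sem

/-!
# P236S: kernels and images in coordinates
-/

noncomputable section

namespace Vale.Agent.P236S

open Vale.Agent.P236T Vale.Agent.P236N Finset

/-- the unit vectors -/
def units (n : ℕ) : List TV := (List.range n).map fun k => (Nat.pow 2 k, 0)

/-- the span of a list -/
def sp (Y : List TV) : Submodule F3 (ℕ → F3) := Submodule.span F3 {g | ∃ y ∈ Y, g = TV.val y}

theorem mem_sp {Y : List TV} {y : TV} (h : y ∈ Y) : y.val ∈ sp Y :=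
  Submodule.subset_span ⟨y, h, rfl⟩

theorem sp_le {Y : List TV} {W : Submodule F3 (ℕ → F3)} (h : ∀ y ∈ Y, TV.val y ∈ W) : sp Y ≤ W :=
  Submodule.span_le.2 (by
    rintro _ ⟨y, hy, rfl⟩
    exact h y hy)

theorem unit_mem {n k : ℕ} (h : k < n) : ((Nat.pow 2 k, 0) : TV) ∈ units n :=
  List.mem_map.2 ⟨k, List.mem_range.2 h, rfl⟩

theorem lc_unit {n k : ℕ} (h : k < n) (f : ℕ → F3) : lc n (TV.val (Nat.pow 2 k, 0)) f = f k := by
  rw [lc_apply, Finset.sum_eq_single k (fun j _ hj => by rw [TV.val_unit, if_neg hj, smul_zero])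
    (by simp [h]), TV.val_unit, if_pos rfl, smul_eq_mul, mul_one]

theorem mem_sp_units {n : ℕ} {f : ℕ → F3} (h : ∀ k, n ≤ k → f k = 0) : f ∈ sp (units n) := by
  have e : f = lc n (fun k => TV.val (Nat.pow 2 k, 0)) f := funext fun l => by
    rw [lc_eval, lc_apply]
    by_cases hl : l < n
    · rw [Finset.sum_eq_single l (fun j _ hj => by rw [TV.val_unit, if_neg hj.symm, smul_zero])
        (by simp [hl]), TV.val_unit, if_pos rfl, smul_eq_mul, mul_one]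
    · rw [h l (by omega), Finset.sum_eq_zero fun j hj => by
        rw [TV.val_unit, if_neg (by have := mem_range.1 hj; omega), smul_zero]]
  rw [e, lc_apply]
  exact Submodule.sum_mem _ fun k hk => Submodule.smul_mem _ _ (mem_sp (unit_mem (mem_range.1 hk)))

theorem lc_sub (n : ℕ) (φ ψ f : ℕ → F3) (c : F3) :
    lc n (φ - c • ψ) f = lc n φ f - c * lc n ψ f := by
  simp only [lc_apply, Finset.mul_sum, ← Finset.sum_sub_distrib, Pi.sub_apply, Pi.smul_apply,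
    smul_eq_mul]
  exact Finset.sum_congr rfl fun _ _ => by ring

/-- The common zeros of the functionals lie in `W`. -/
def Im (n : ℕ) (W : Submodule F3 (ℕ → F3)) (Φ : List TV) : Prop :=
  ∀ f, (∀ φ ∈ Φ, lc n (TV.val φ) f = 0) → f ∈ W

theorem im_init {n : ℕ} {W : Submodule F3 (ℕ → F3)} (h : ∀ f, (∀ k < n, f k = 0) → f ∈ W) :
    Im n W (units n) :=
  fun f hf => h f fun _ hk => (lc_unit hk f).symm.trans (hf _ (unit_mem hk))

theorem Im.step {n : ℕ} {W : Submodule F3 (ℕ → F3)} {Φ Φ' : List TV} (H0 : Im n W Φ)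
    {u ψ : ℕ → F3} (hu : u ∈ W)
    (h : ∀ φ ∈ Φ, ∃ φ' ∈ Φ', TV.val φ' = TV.val φ - lc n (TV.val φ) u • ψ) : Im n W Φ' := by
  intro f hf
  have h1 := H0 (f - lc n ψ f • u) fun φ hφ => by
    obtain ⟨φ', h2, h3⟩ := h φ hφ
    have h4 := hf φ' h2
    rw [h3, lc_sub] at h4
    rw [map_sub, map_smul, smul_eq_mul, mul_comm, h4]
  simpa using add_mem h1 (Submodule.smul_mem W (lc n ψ f) hu)

variable (M : Mdl) (Δ : Delta)

/-- the matrix of the differential -/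
def Dm (s d : ℕ) : (ℕ → F3) →ₗ[F3] ℕ → F3 := lc (M.n s d) (U M Δ s d)

/-- The kernel of the differential lies in the span of the list. -/
def Ker (s d : ℕ) (Y : List TV) : Prop :=
  ∀ f, (∀ l < M.n (s + 5) (d + 1), Dm M Δ s d f l = 0) → (∀ k, M.n s d ≤ k → f k = 0) → f ∈ sp Y

/-- The kernel is spanned by `g` and the image. -/
def ExD (a v : ℕ) (g : HD (a + 5) (v + 1)) : Prop :=
  ∀ y, dl Δ (a + 5) (v + 1) y = 0 → ∃ (c : ℤ) (x : HD a v), y = c • g + dl Δ a v x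

/-- the coordinate vectors of the span of `g` and the image -/
def Wd (a v : ℕ) (g : ℕ → F3) : Submodule F3 (ℕ → F3) :=
  (Submodule.span F3 {cb M (a + 5) (v + 1) g} ⊔
    LinearMap.range ((dl Δ a v).toZModLinearMap 3)).comap (cb M (a + 5) (v + 1))

/-- the condition `KC` -/
def KCD (s d : ℕ) (z : HD s d) : Prop :=
  ∀ y : HD (s + 6) (d + 3), dl Δ (s + 6) (d + 3) y = 0 →
    H.cup (show s + 5 + 2 = s + 7 from rfl)
        (show ((2 * (d + 1) : ℕ) : ℤ) + 6 = (2 * (d + 4) : ℕ) by omega) (dl Δ s d z) b0 ≠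
      H.cup (show s + 6 + 1 = s + 7 from rfl)
        (show ((2 * (d + 3) : ℕ) : ℤ) + 2 = (2 * (d + 4) : ℕ) by omega) y h0

variable {M Δ} {s d a v : ℕ} {Y Y' Φ : List TV}

theorem ker_init : Ker M Δ s d (units (M.n s d)) := fun _ _ h => mem_sp_units h

theorem Ker.step (H0 : Ker M Δ s d Y) (φ z : ℕ → F3) (h : ∀ y ∈ Y, ∃ y' ∈ Y', TV.val y' =
    TV.val y - lc (M.n (s + 5) (d + 1)) φ (Dm M Δ s d y.val) • z) : Ker M Δ s d Y' := by
  intro f h1 h2
  let π : (ℕ → F3) →ₗ[F3] ℕ → F3 :=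
    LinearMap.id - ((lc (M.n (s + 5) (d + 1)) φ).comp (Dm M Δ s d)).smulRight z
  have h3 : sp Y ≤ (sp Y').comap π := sp_le fun y hy => by
    obtain ⟨y', h4, h5⟩ := h y hy
    exact Submodule.mem_comap.2 (h5 ▸ mem_sp h4 :)
  have h6 : π f = f - lc (M.n (s + 5) (d + 1)) φ (Dm M Δ s d f) • z := rfl
  have h7 := Submodule.mem_comap.1 (h3 (H0 f h1 h2))
  rwa [h6, lc_zero h1, zero_smul, sub_zero] at h7

theorem Ker.spec (H0 : Ker M Δ s d Y) (g1 : M.Good s d) (g2 : M.Good (s + 5) (d + 1))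
    {y : HD s d} (hy : dl Δ s d y = 0) : ∃ f ∈ sp Y, y = cb M s d f := by
  obtain ⟨f, rfl⟩ := good_ex g1 y
  have e : cb M s d f = cb M s d fun k => if k < M.n s d then f k else 0 :=
    lc_congr (fun _ _ => rfl) fun k hk => (if_pos hk).symm
  rw [e, dl_cb g2, ← map_zero (cb M _ _)] at hy
  exact ⟨_, H0 _ (fun l hl => good_inj g2 hy hl) fun k hk => if_neg (by omega), e⟩

theorem dl_eq_zero (g2 : M.Good (s + 5) (d + 1)) {f : ℕ → F3}
    (h : ∀ l < M.n (s + 5) (d + 1), Dm M Δ s d f l = 0) : dl Δ s d (cb M s d f) = 0 :=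
  (dl_cb g2 f).trans (lc_zero h)

theorem wd_init (g : ℕ → F3) :
    Im (M.n (a + 5) (v + 1)) (Wd M Δ a v g) (units (M.n (a + 5) (v + 1))) :=
  im_init fun _ hf => Submodule.mem_comap.2 ((lc_zero hf :
    cb M (a + 5) (v + 1) _ = 0) ▸ zero_mem _)

theorem mem_wd (g : ℕ → F3) : g ∈ Wd M Δ a v g :=
  Submodule.mem_comap.2 (Submodule.mem_sup_left (Submodule.mem_span_singleton_self _))

theorem dm_mem_wd (g1 : M.Good (a + 5) (v + 1)) (g f : ℕ → F3) : Dm M Δ a v f ∈ Wd M Δ a v g :=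
  Submodule.mem_comap.2 (Submodule.mem_sup_right ⟨cb M a v f, dl_cb g1 f⟩)

theorem ex_of {g : ℕ → F3} (g1 : M.Good (a + 5) (v + 1)) (g2 : M.Good (a + 5 + 5) (v + 1 + 1))
    (hK : Ker M Δ (a + 5) (v + 1) Y) (hI : Im (M.n (a + 5) (v + 1)) (Wd M Δ a v g) Φ)
    (h : ∀ y ∈ Y, ∀ φ ∈ Φ, lc (M.n (a + 5) (v + 1)) (TV.val φ) (TV.val y) = 0) :
    ExD Δ a v (cb M _ _ g) := by
  intro y hy
  obtain ⟨f, hf, rfl⟩ := hK.spec g1 g2 hy
  obtain ⟨_, h1, _, ⟨x, rfl⟩, h2⟩ :=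
    Submodule.mem_sup.1 (Submodule.mem_comap.1 (sp_le (fun y hy => hI _ (h y hy)) hf))
  obtain ⟨c, rfl⟩ := Submodule.mem_span_singleton.1 h1
  exact ⟨c.val, x, by rw [natCast_zsmul, val_smul]; exact h2.symm⟩

theorem ExD.sign {g : HD (a + 5) (v + 1)} (h : ExD Δ a v g) (n : ℕ) :
    ExD Δ a v ((-1 : ℤ) ^ n • g) := fun y hy => by
  obtain ⟨c, x, hx⟩ := h y hy
  exact ⟨c * (-1) ^ n, x, by
    rw [smul_smul, mul_assoc, ← mul_pow, neg_one_mul, neg_neg, one_pow, mul_one, hx]⟩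

theorem cup_h0 {t e : ℕ} {B : ℕ → TV} (hB : Rows M 1 s d B) (g : M.Good t e) (hs : s + 1 = t)
    (hd : d + 1 = e) (f : ℕ → F3) :
    H.cup hs (show ((2 * d : ℕ) : ℤ) + 2 = (2 * e : ℕ) by omega) (cb M s d f) h0 =
      (-1 : ℤ) ^ s • cb M t e (lc (M.n s d) (fun k => (B k).val) f) := by
  rw [cup_h0_right, ← M.m1]
  exact congrArg _ ((mu_cb hB (show 1 + s = t by omega) (show 1 + d = e by omega) f).eq g.2.2)

theorem kc_of {A B : ℕ → TV} {z φ : ℕ → F3} (hA : Rows M 4 (s + 5) (d + 1) A)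
    (hB : Rows M 1 (s + 6) (d + 3) B) (g1 : M.Good (s + 5) (d + 1)) (g2 : M.Good (s + 6) (d + 3))
    (g3 : M.Good (s + 6 + 5) (d + 3 + 1)) (g4 : M.Good (s + 7) (d + 4))
    (hK : Ker M Δ (s + 6) (d + 3) Y) (h : ∀ y ∈ Y, lc (M.n (s + 7) (d + 4)) φ
      (lc (M.n (s + 6) (d + 3)) (fun k => (B k).val) (TV.val y)) = 0)
    (hz : lc (M.n (s + 5) (d + 1)) (fun k => lc (M.n (s + 7) (d + 4)) φ (A k).val)
      (Dm M Δ s d z) ≠ 0) : KCD Δ s d (cb M s d z) := by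
  intro y hy e
  obtain ⟨f, hf, rfl⟩ := hK.spec g2 g3 hy
  have h1 : sp Y ≤ LinearMap.ker ((lc (M.n (s + 7) (d + 4)) φ).comp
    (lc (M.n (s + 6) (d + 3)) fun k => (B k).val)) := sp_le h
  have h2 : lc (M.n (s + 7) (d + 4)) φ (lc (M.n (s + 6) (d + 3)) (fun k => (B k).val) f) = 0 :=
    h1 hf
  have h3 := (mu_cb hA (show 2 + (s + 5) = s + 7 by omega) (show 3 + (d + 1) = d + 4 by omega)
    (Dm M Δ s d z)).eq g4.2.2
  rw [cup_h0 hB g4 rfl rfl, dl_cb g1, ← cup_comm_b0 (show 2 + (s + 5) = s + 7 by omega) rfl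
    (by omega), ← map_zsmul, ← M.m4] at e
  refine hz ?_
  rw [← lc_lc, lc_congr (fun _ _ => rfl) fun l hl => good_inj g4 (h3.symm.trans e) hl, map_zsmul,
    h2, smul_zero]

end Vale.Agent.P236S

end
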