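import Vale.Agent.P236N.Mdl
import Vale.Agent.P236N.A2

/-!
# P236S: the coordinates of the differential

* `lc n v f = ∑_{k < n} f k • v k`;
* `U M Δ s d k`: the coordinates of the differential of a named class;
* `eq_rule`, `eq_dd`: the scalar equations;
* `ExD`, `ex_of`, `kc_of`: the final statements in coordinates.
-/

noncomputable section

namespace Vale.Agent.P236S

open Vale.Agent.P236T Vale.Agent.P236N Finset

instance modHQ (s : ℕ) (w : ℤ) : Module F3 (HQ s w) :=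
  AddCommGroup.zmodModule (n := 3) fun x => by
    have h := three_smul x
    rwa [show (3 : ℤ) = ((3 : ℕ) : ℤ) from rfl, natCast_zsmul] at h

section

variable {V W : Type} [AddCommGroup V] [Module F3 V] [AddCommGroup W] [Module F3 W]

/-- linear combinations of the first `n` vectors -/
def lc (n : ℕ) (v : ℕ → V) : (ℕ → F3) →ₗ[F3] V :=
  ∑ k ∈ range n, (LinearMap.proj k).smulRight (v k)

theorem lc_apply (n : ℕ) (v : ℕ → V) (f : ℕ → F3) : lc n v f = ∑ k ∈ range n, f k • v k := by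
  simp [lc]

theorem map_lc (g : V →+ W) (n : ℕ) (v : ℕ → V) (f : ℕ → F3) :
    g (lc n v f) = lc n (fun k => g (v k)) f := by
  simp only [lc_apply, map_sum, ZMod.map_smul]

theorem lc_lc (m n : ℕ) (v : ℕ → V) (q : ℕ → ℕ → F3) (f : ℕ → F3) :
    lc m v (lc n q f) = lc n (fun k => lc m v (q k)) f := map_lc (lc m v).toAddMonoidHom n q f

theorem lc_eval (n : ℕ) (q : ℕ → ℕ → F3) (f : ℕ → F3) (l : ℕ) :
    lc n q f l = lc n (fun k => q k l) f := by
  simp only [lc_apply, Finset.sum_apply, Pi.smul_apply]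

theorem lc_congr {n : ℕ} {v v' : ℕ → V} {f f' : ℕ → F3} (h : ∀ k < n, v k = v' k)
    (h' : ∀ k < n, f k = f' k) : lc n v f = lc n v' f' := by
  rw [lc_apply, lc_apply]
  exact Finset.sum_congr rfl fun k hk => by rw [h k (mem_range.1 hk), h' k (mem_range.1 hk)]

theorem lc_zero {n : ℕ} {v : ℕ → V} {f : ℕ → F3} (h : ∀ k < n, f k = 0) : lc n v f = 0 :=
  (lc_congr (fun _ _ => rfl) h).trans (map_zero _)

theorem val_smul (c : F3) (x : V) : c.val • x = c • x := by
  rw [← Nat.cast_smul_eq_nsmul F3, ZMod.natCast_zmod_val]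

end

theorem cg_smul {s : ℕ} {u : ℤ} {x x' : HQ s u} (h : Cg x x') (c : F3) : Cg (c • x) (c • x') := by
  obtain ⟨a, ha⟩ := h
  exact ⟨c • a, by rw [ZMod.map_smul, ← ha, smul_sub]⟩

theorem cg_lc {s n : ℕ} {u : ℤ} {v v' : ℕ → HQ s u} (h : ∀ k < n, Cg (v k) (v' k))
    (f : ℕ → F3) : Cg (lc n v f) (lc n v' f) := by
  rw [lc_apply, lc_apply]
  induction n with
  | zero => exact Cg.of_eq rfl
  | succ n ih =>
    rw [Finset.sum_range_succ, Finset.sum_range_succ]
    exact (ih fun k hk => h k (by omega)).add (cg_smul (h n (by omega)) _)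

theorem cup_vp (m : ℕ) {a b n : ℕ} {v w u w' u' : ℤ} (h : a + b = n) (k : v + w = u)
    (k1 : w + 2 * m = w') (k2 : u + 2 * m = u') (x : HQ a v) (y : HQ b w) :
    H.cup h (show v + w' = u' by omega) x (vp m k1 y) = vp m k2 (H.cup h k x y) := by
  induction m generalizing w' u' with
  | zero =>
    obtain rfl : w = w' := by simpa using k1
    obtain rfl : u = u' := by simpa using k2
    rw [vp_zero, vp_zero]
  | succ m ih =>
    rw [vp_succ, vp_succ, ← ih rfl,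
      ← H.cup_assoc (add_zero a) h _ _ (show v + 2 = 2 + v from add_comm _ _)
        (by push_cast at *; omega), ← H.cup_comm_zero (zero_add a) _ rfl]
    exact H.cup_assoc _ _ _ _ _ _ _ _ _ _ _

theorem cg_cup {a b n : ℕ} {v w u : ℤ} (h : a + b = n) (k : v + w = u) (x : HQ a v)
    {y y' : HQ b w} (H0 : Cg y y') : Cg (H.cup h k x y) (H.cup h k x y') := by
  obtain ⟨c, hc⟩ := H0
  exact ⟨H.cup h (by omega) x c, by rw [← map_sub, hc, cup_vp]⟩

variable (M : Mdl) (Δ : Delta)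

/-- combinations of the named classes -/
def cb (s d : ℕ) : (ℕ → F3) →ₗ[F3] HD s d := lc (M.n s d) (M.x s d)

theorem cb_eq (s d : ℕ) (f : ℕ → F3) : M.cb s d f = cb M s d f := by
  simp only [Mdl.cb, cb, lc_apply, val_smul]

/-- the differential -/
def dl (s d : ℕ) : HD s d →+ HD (s + 5) (d + 1) := Δ.δ rfl (by push_cast; ring)

/-- the multiplications -/
def mu (i : ℕ) {s d t e : ℕ} (hs : mA i + s = t) (hd : mF i + d = e) : HD s d →+ HD t e :=
  H.cup hs (by omega) (M.m i)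

/-- the coordinates of the differential of a named class -/
def U (s d k : ℕ) : ℕ → F3 :=
  Classical.epsilon fun f => dl Δ s d (M.x s d k) = cb M (s + 5) (d + 1) f

/-- all products of a multiplier with the named classes of a bidegree -/
def Rows (i s d : ℕ) (Q : ℕ → TV) : Prop := ∀ k < M.n s d, M.Row i s d k (Q k)

/-- the Toda differential -/
def Td : Prop := Δ.δ (s := 2) (t := 7) (w := 18) (u := 20) rfl rfl (M.m 5) =
  H.cup (a := 1) (b := 2 * 3) rfl (by norm_num) h0 (bp 3)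

variable {M Δ} {i s d t e k l : ℕ}

theorem good_ex (h : M.Good s d) (y : HD s d) : ∃ f, y = cb M s d f := by
  obtain ⟨f, hf⟩ := h.1 y
  exact ⟨f, (hf.eq h.2.2).trans (cb_eq M _ _ f)⟩

theorem good_inj (h : M.Good s d) {f g : ℕ → F3} (H0 : cb M s d f = cb M s d g)
    (hl : l < M.n s d) : f l = g l :=
  sub_eq_zero.1 (h.2.1 (f - g) (Cg.of_eq (by rw [cb_eq, map_sub, H0, sub_self])) l hl)

theorem dl_x (h : M.Good (s + 5) (d + 1)) (k : ℕ) :
    dl Δ s d (M.x s d k) = cb M (s + 5) (d + 1) (U M Δ s d k) :=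
  Classical.epsilon_spec (good_ex h (dl Δ s d (M.x s d k)))

theorem dl_cb (h : M.Good (s + 5) (d + 1)) (f : ℕ → F3) :
    dl Δ s d (cb M s d f) = cb M (s + 5) (d + 1) (lc (M.n s d) (U M Δ s d) f) := by
  rw [cb, cb, map_lc, lc_lc]
  exact lc_congr (fun k _ => dl_x h k) fun _ _ => rfl

theorem dl_cg (h : M.Good (s + 5) (d + 1)) {y y' : HD s d} (H0 : Cg y y') :
    dl Δ s d y = dl Δ s d y' := H0.delta Δ _ _ h.2.2

theorem mu_x {p : TV} (h : M.Row i s d k p) (hs : mA i + s = t) (hd : mF i + d = e) :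
    Cg (mu M i hs hd (M.x s d k)) (cb M t e p.val) := cb_eq M t e _ ▸ h hs hd

theorem mu_cb {Q : ℕ → TV} (h : Rows M i s d Q) (hs : mA i + s = t) (hd : mF i + d = e)
    (f : ℕ → F3) : Cg (mu M i hs hd (cb M s d f))
      (cb M t e (lc (M.n s d) (fun k => (Q k).val) f)) := by
  rw [cb, map_lc, cb, lc_lc]
  exact cg_lc (fun k hk => mu_x (h k hk) hs hd) f

theorem mu_cg {Q : ℕ → TV} (h : Rows M i s d Q) (hs : mA i + s = t) (hd : mF i + d = e)
    {y : HD s d} {f : ℕ → F3} (H0 : Cg y (cb M s d f)) :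
    Cg (mu M i hs hd y) (cb M t e (lc (M.n s d) (fun k => (Q k).val) f)) :=
  (cg_cup _ _ _ H0).trans (mu_cb h hs hd f)

/-- the signs in the Leibniz rules -/
def sg (i : ℕ) : ℕ := bif Nat.beq (mA i) 1 then 2 else 1

theorem two_smul' {s : ℕ} {u : ℤ} (x : HQ s u) : ((2 : ℕ) : F3) • x = -x := by
  rw [show ((2 : ℕ) : F3) = -1 by decide, neg_smul, one_smul]

theorem leib_low (hi : i ≤ 4) (hs : mA i + s = t) (hd : mF i + d = e) (z : HD s d) :
    dl Δ t e (mu M i hs hd z) = (sg i : F3) • mu M i (show mA i + (s + 5) = t + 5 by omega)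
      (show mF i + (d + 1) = e + 1 by omega) (dl Δ s d z) := by
  obtain rfl | rfl | rfl | rfl | rfl : i = 0 ∨ i = 1 ∨ i = 2 ∨ i = 3 ∨ i = 4 := by omega
  · obtain rfl : s = t := by simpa [mA] using hs
    refine Eq.trans ?_ (one_smul F3 _).symm
    rw [mu, mu, M.m0]
    exact Δ.v1_mul _ _ _ _ z
  · refine Eq.trans ?_ (two_smul' _).symm
    exact Δ.leib_cyc hs rfl rfl _ _ rfl _ (Δ.δ_low _ _ (by decide) _) z
  · refine Eq.trans ?_ (two_smul' _).symm
    exact Δ.leib_cyc hs rfl rfl _ _ rfl _ (Δ.δ_low _ _ (by decide) _) z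
  · refine Eq.trans ?_ (two_smul' _).symm
    exact Δ.leib_cyc hs rfl rfl _ _ rfl _ (Δ.δ_low _ _ (by decide) _) z
  · refine Eq.trans ?_ (one_smul F3 _).symm
    rw [mu, mu, M.m4]
    exact Δ.δ_b0_mul hs rfl rfl _ _ _ z

/-- multiplication by `h₀ b₀ ^ 3` -/
def kap (M : Mdl) (s d : ℕ) (z : HD s d) : HD (2 + s + 5) (9 + d + 1) :=
  mu M 1 (s := 2 + (2 + (2 + s))) (d := 3 + (3 + (3 + d))) (by simp only [mA]; omega)
    (by simp only [mF]; omega) (mu M 4 rfl rfl (mu M 4 rfl rfl (mu M 4 rfl rfl z)))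

theorem leib_five (hT : Td M Δ) (z : HD s d) :
    dl Δ (2 + s) (9 + d) (mu M 5 rfl rfl z) = kap M s d z + (sg 5 : F3) •
      mu M 5 (s := s + 5) (d := d + 1) (t := 2 + s + 5) (e := 9 + d + 1) rfl rfl (dl Δ s d z) := by
  obtain ⟨y, hy⟩ := M.m5
  have h := Δ.leibB (s := s) (n := 2 + s) (w := (2 * d : ℕ)) (u := (2 * (9 + d) : ℕ))
    (r := (2 * (9 + d + 1) : ℕ)) (w' := (2 * (d + 1) : ℕ)) rfl rfl rfl (by omega) (by omega)
    (show (18 : ℤ) + 2 = 20 from rfl) (by omega) y z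
  rw [← hy, hT, cup_toda (s2 := 2 + s) (s4 := 2 + (2 + s)) (s6 := 2 + (2 + (2 + s)))
    (w2 := (2 * (3 + d) : ℕ)) (w4 := (2 * (3 + (3 + d)) : ℕ))
    (w6 := (2 * (3 + (3 + (3 + d))) : ℕ)) rfl rfl rfl (by omega) (by omega) (by omega)
    (by omega) (by omega), ← M.m1, ← M.m4] at h
  exact h.trans (congrArg _ (one_smul F3 _).symm)

theorem eq_rule (hs : mA i + s = t) (hd : mF i + d = e) {p : TV} {Q : ℕ → TV}
    {κ : HD (t + 5) (e + 1)} {c : ℕ → F3} {σ : F3}
    (hL : dl Δ t e (mu M i hs hd (M.x s d k)) = κ + σ • mu M i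
      (show mA i + (s + 5) = t + 5 by omega) (show mF i + (d + 1) = e + 1 by omega)
      (dl Δ s d (M.x s d k))) (hκ : Cg κ (cb M _ _ c)) (hp : M.Row i s d k p)
    (hQ : Rows M i (s + 5) (d + 1) Q) (g1 : M.Good (s + 5) (d + 1))
    (g2 : M.Good (t + 5) (e + 1)) (hl : l < M.n (t + 5) (e + 1)) :
    lc (M.n t e) (fun j => U M Δ t e j l) p.val =
      c l + σ * lc (M.n (s + 5) (d + 1)) (fun j => (Q j).val l) (U M Δ s d k) := by
  rw [dl_cg g2 (mu_x hp hs hd), dl_cb g2, dl_x g1, hκ.eq g2.2.2, (mu_cb hQ _ _ _).eq g2.2.2,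
    ← map_smul, ← map_add] at hL
  have h := good_inj g2 hL hl
  rwa [Pi.add_apply, Pi.smul_apply, lc_eval, lc_eval] at h

theorem eq_dd (g1 : M.Good (s + 5) (d + 1)) (g2 : M.Good (s + 5 + 5) (d + 1 + 1))
    (hl : l < M.n (s + 5 + 5) (d + 1 + 1)) :
    lc (M.n (s + 5) (d + 1)) (fun j => U M Δ (s + 5) (d + 1) j l) (U M Δ s d k) = 0 := by
  have h : dl Δ _ _ (dl Δ s d (M.x s d k)) = 0 := Δ.dd _ _ _ _ _
  rw [dl_x g1, dl_cb g2, ← map_zero (cb M _ _)] at h
  exact (lc_eval _ _ _ _).symm.trans (good_inj g2 h hl)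

end Vale.Agent.P236S

end
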